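import Mathlib
import Vale.Agent.P013.Final
import Vale.Agent.P013.Fin

/-!
# P013: Jacobsthal's function, an exponent below 2 and the classes of Vaughan type

`jac n` is Jacobsthal's function `j(n)`, and `k = n.primeFactors.card = ω(n)`.
-/

namespace Vale.Agent.Results.P013.Combined

open Finset Vale.Agent.P013.MP

theorem result :
    -- `jac` is Jacobsthal's function
    (∀ n : ℕ, n ≠ 0 →
      IsLeast {m : ℕ | 0 < m ∧ ∀ a : ℤ, ∃ x : ℤ, a ≤ x ∧ x < a + m ∧ IsCoprime x (n : ℤ)}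
        (jac n)) ∧
    -- (1)
    (∃ d : ℝ, 0 < d ∧ ∃ C : ℝ, 0 < C ∧ ∀ n : ℕ, 1 < n →
      (∑ p ∈ n.primeFactors.filter (fun p : ℕ => (n.primeFactors.card : ℝ) ^ d < (p : ℝ) ∧
        (p : ℝ) ≤ Real.sqrt (n.primeFactors.card : ℝ)), 1 / (p : ℝ)) ≤ 23 / 25 →
      (jac n : ℝ) ≤ C * (n.primeFactors.card : ℝ) ^ (399 / 200 : ℝ)) ∧
    -- (2)
    (∃ d : ℝ, 0 < d ∧ ∃ C : ℝ, 0 < C ∧ ∀ n : ℕ, 1 < n →
      (∀ p : ℕ, p.Prime → p ∣ n → (p : ℝ) ≤ (n.primeFactors.card : ℝ) ^ d ∨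
        (n.primeFactors.card : ℝ) ^ (1 / 5 : ℝ) < (p : ℝ)) →
      (jac n : ℝ) ≤ C * (n.primeFactors.card : ℝ) ^ (399 / 200 : ℝ)) ∧
    -- (3)
    (∀ θ ε δ : ℝ, 0 < θ → θ ≤ 1 → 0 < ε → 0 < δ → ∃ η C : ℝ, 0 < η ∧ 0 < C ∧ ∀ n : ℕ, 1 < n →
      ∑ p ∈ n.primeFactors.filter (fun p : ℕ => (n.primeFactors.card : ℝ) ^ η < (p : ℝ) ∧
        (p : ℝ) ≤ (n.primeFactors.card : ℝ) ^ θ), 1 / (p : ℝ) ≤ 1 - Real.log (1 / θ) - ε →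
      (jac n : ℝ) ≤ C * (n.primeFactors.card : ℝ) ^ (1 + δ)) ∧
    -- (4)
    (∀ θ δ : ℝ, Real.exp (-1) < θ → θ ≤ 1 → 0 < δ → ∃ η C : ℝ, 0 < η ∧ 0 < C ∧
      ∀ n : ℕ, 1 < n →
      (∀ p ∈ n.primeFactors, ¬ ((n.primeFactors.card : ℝ) ^ η < (p : ℝ) ∧
        (p : ℝ) ≤ (n.primeFactors.card : ℝ) ^ θ)) →
      (jac n : ℝ) ≤ C * (n.primeFactors.card : ℝ) ^ (1 + δ)) := by
  refine ⟨jac_isLeast, ?_, ?_, fun θ ε δ h1 h2 h3 h4 => partD θ ε δ h1 h2 h3 h4,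
    fun θ δ h1 h2 h3 => partF θ δ h1 h2 h3⟩
  · obtain ⟨d, hd, C, hC, h⟩ := Vale.Agent.P013.part1
    refine ⟨d, hd, C, hC, fun n hn hs => ?_⟩
    rw [← Vale.Agent.P013.jac_eq]
    exact h n hn hs
  · obtain ⟨d, hd, C, hC, h⟩ := Vale.Agent.P013.part2
    refine ⟨d, hd, C, hC, fun n hn hs => ?_⟩
    rw [← Vale.Agent.P013.jac_eq]
    exact h n hn hs

end Vale.Agent.Results.P013.Combined
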