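import Mathlib
import Vale.Agent.P013.Final

/-!
# P013: Jacobsthal's function and the prime factors of middle size

`jac n` is Jacobsthal's function `j(n)`, and `k = n.primeFactors.card = ω(n)`.
-/

namespace Vale.Agent.Results.P013.MiddlePrimes

open Finset Vale.Agent.P013.MP

theorem result :
    -- `jac` is Jacobsthal's function
    (∀ n : ℕ, n ≠ 0 →
      IsLeast {m : ℕ | 0 < m ∧ ∀ a : ℤ, ∃ x : ℤ, a ≤ x ∧ x < a + m ∧ IsCoprime x (n : ℤ)}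
        (jac n)) ∧
    -- (A)
    (∀ ε : ℝ, 0 < ε → ∃ (C : ℝ) (K : ℕ), 0 < C ∧ ∀ n y : ℕ, n ≠ 0 → 1 ≤ y →
      ∑ p ∈ n.primeFactors.filter (fun p => y < p), 1 / (p : ℝ) ≤ 1 - ε →
      (jac n : ℝ) ≤ C * ((n.primeFactors.card : ℝ) + 1) * (y : ℝ) ^ K) ∧
    -- (B)
    (∀ θ ε δ : ℝ, 0 < θ → θ ≤ 1 → 0 < ε → 0 < δ → ∃ η C : ℝ, 0 < η ∧ 0 < C ∧ ∀ n : ℕ, 1 < n →
      ∑ p ∈ n.primeFactors.filter (fun p : ℕ => (n.primeFactors.card : ℝ) ^ η < (p : ℝ) ∧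
        (p : ℝ) ≤ (n.primeFactors.card : ℝ) ^ θ), 1 / (p : ℝ) ≤ 1 - Real.log (1 / θ) - ε →
      (jac n : ℝ) ≤ C * (n.primeFactors.card : ℝ) ^ (1 + δ)) ∧
    -- (C)
    (∀ θ δ : ℝ, Real.exp (-1) < θ → θ ≤ 1 → 0 < δ → ∃ η C : ℝ, 0 < η ∧ 0 < C ∧
      ∀ n : ℕ, 1 < n →
      (∀ p ∈ n.primeFactors, ¬ ((n.primeFactors.card : ℝ) ^ η < (p : ℝ) ∧
        (p : ℝ) ≤ (n.primeFactors.card : ℝ) ^ θ)) →
      (jac n : ℝ) ≤ C * (n.primeFactors.card : ℝ) ^ (1 + δ)) ∧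
    -- (D)
    (∀ P : Set ℕ, Summable (P.indicator fun p : ℕ => 1 / (p : ℝ)) →
      ∃ C : ℝ, ∀ n : ℕ, 1 < n → (∀ p ∈ n.primeFactors, p ∈ P) →
      (jac n : ℝ) ≤ C * n.primeFactors.card) := by
  refine ⟨jac_isLeast, fun ε hε => ?_, fun θ ε δ h1 h2 h3 h4 => partD θ ε δ h1 h2 h3 h4,
    fun θ δ h1 h2 h3 => partF θ δ h1 h2 h3, partE⟩
  obtain ⟨C, K, hC, _, h⟩ := partA ε hε
  exact ⟨C, K, hC, h⟩

end Vale.Agent.Results.P013.MiddlePrimes
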